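import Vale.Agent.P354CB.Ez

/-!
GL1: countably many developments of parts of the data, glued along their common developments.
-/

open Set Filter Topology

namespace Vale.Agent.P354CB35

open Vale.Agent.P354n Vale.Agent.P354CB
open Vale.Agent.P354I (X Dat)
open Vale.Agent.P354J (PDy)
open Vale.Agent.P354XJ (Iso isIsom_iff inv_mem co_inv inv_cont)

variable {d : Dat} {ι : Type} {A : ι → LD d}

/-- What the gluing uses. -/
structure Hy (A : ι → LD d) : Prop where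
  refl : ∀ i x, Rel (A i) (A i) x x
  symm : ∀ {i k x y}, Rel (A i) (A k) x y → Rel (A k) (A i) y x
  trans : ∀ {i k l x y z}, Rel (A i) (A k) x y → Rel (A k) (A l) y z → Rel (A i) (A l) x z
  inj : ∀ {i x y}, Rel (A i) (A i) x y → x = y
  closed : ∀ i k, IsClosed {q : (A i).N.pt × (A k).N.pt | Rel (A i) (A k) q.1 q.2}

theorem hy (Z : L0) (T : L3) (K : KEY) (hd : PDy d) (A : ι → LD d) : Hy A where
  refl i x := ⟨univ, id, com_id Z.k1 (A i), trivial, rfl⟩
  symm := by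
    rintro i k x _ ⟨U, ψ, c, m, rfl⟩
    obtain ⟨φ, c', e⟩ := T.symm d hd _ _ U ψ c
    exact ⟨_, φ, c', ⟨x, m, rfl⟩, e x m⟩
  trans := by
    rintro i k l x _ _ ⟨U, ψ, c, m, rfl⟩ ⟨V, φ, c', m', rfl⟩
    exact ⟨_, _, T.trans d hd _ _ _ U ψ V φ c c', ⟨m, m'⟩, rfl⟩
  inj := by
    rintro i x _ ⟨U, ψ, c, m, rfl⟩
    exact (T.func d hd _ _ U ψ univ id c (com_id Z.k1 (A i)) ⟨m, trivial⟩).symm
  closed i k := K d hd _ _

namespace Hy

variable (h : Hy A)
include h

/-- The equivalence relation. -/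
def st : Setoid (Σ i, (A i).N.pt) where
  r p q := Rel (A p.1) (A q.1) p.2 q.2
  iseqv := ⟨fun p => h.refl p.1 p.2, h.symm, h.trans⟩

/-- The points. -/
def Q : Type := Quotient h.st

instance : TopologicalSpace h.Q := inferInstanceAs (TopologicalSpace (Quotient h.st))

/-- The embeddings. -/
def κ (i : ι) (x : (A i).N.pt) : h.Q := Quotient.mk h.st ⟨i, x⟩

lemma eq {i k : ι} {x : (A i).N.pt} {y : (A k).N.pt} :
    h.κ i x = h.κ k y ↔ Rel (A i) (A k) x y :=
  Quotient.eq (r := h.st)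

lemma open_iff {S : Set h.Q} : IsOpen S ↔ ∀ i, IsOpen (h.κ i ⁻¹' S) :=
  (isQuotientMap_quot_mk (r := h.st)).isOpen_preimage.symm.trans isOpen_sigma_iff

lemma emb (i : ι) : IsOpenEmbedding (h.κ i) := by
  refine .of_continuous_injective_isOpenMap (continuous_def.2 fun S hS => h.open_iff.1 hS i)
    (fun _ _ k => h.inj (h.eq.1 k)) fun U hU => h.open_iff.2 fun k => isOpen_iff_mem_nhds.2 ?_
  rintro y ⟨x, hx, e⟩
  obtain ⟨V, φ, c, m, rfl⟩ := h.eq.1 e.symm
  filter_upwards [c.hull.op.mem_nhds m, (c.lm y m).1 (hU.mem_nhds hx)] with z z1 z2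
  exact ⟨φ z, z2, (h.eq.2 ⟨V, φ, c, z1, rfl⟩).symm⟩

lemma cover (p : h.Q) : ∃ i x, h.κ i x = p := by
  obtain ⟨⟨i, x⟩, rfl⟩ := Quotient.exists_rep p
  exact ⟨i, x, rfl⟩

lemma t2 : T2Space h.Q := by
  refine ⟨fun p q n => ?_⟩
  obtain ⟨i, x, rfl⟩ := h.cover p
  obtain ⟨k, y, rfl⟩ := h.cover q
  obtain ⟨u, v, hu, hv, xu, yv, huv⟩ := isOpen_prod_iff.1 (h.closed i k).isOpen_compl x y
    fun r => n (h.eq.2 r)
  refine ⟨_, _, (h.emb i).isOpenMap u hu, (h.emb k).isOpenMap v hv, ⟨x, xu, rfl⟩, ⟨y, yv, rfl⟩,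
    disjoint_left.2 ?_⟩
  rintro _ ⟨x', hx', rfl⟩ ⟨y', hy', e⟩
  exact huv (mk_mem_prod hx' hy') (h.eq.1 e.symm)

/-- The glued spacetime. -/
noncomputable def sp : Spc where
  pt := h.Q
  hausdorff := h.t2
  Chart := Σ i, (A i).N.Chart
  toE e := ((A e.1).N.toE e.2).lift_openEmbedding (h.emb e.1)
  cover p := by
    obtain ⟨i, x, rfl⟩ := h.cover p
    obtain ⟨e, he⟩ := (A i).N.cover x
    exact ⟨⟨i, e⟩, x, he, rfl⟩
  g e := (A e.1).N.g e.2
  X e := (A e.1).N.X e.2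

lemma co_κ (i : ι) (e : (A i).N.Chart) (x : (A i).N.pt) :
    co (M := h.sp) ⟨i, e⟩ (h.κ i x) = co e x :=
  ((A i).N.toE e).lift_openEmbedding_apply (h.emb i)

lemma isom (i : ι) : IsIsom (N := h.sp) (h.κ i) := by
  refine isIsom_iff.2 ?_
  rintro e ⟨k, e'⟩ y hy ⟨x, hx, n⟩
  obtain ⟨V, ψ, c, m, rfl⟩ := h.eq.1 n.symm
  have a := (c.lm _ m).2 e e' (inv_mem hy) hx
  rw [co_inv hy] at a
  refine Iso.congr (e' := e') a ?_
  filter_upwards [inv_cont hy (c.hull.op.mem_nhds m)] with z hz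
  exact (congrArg _ (h.eq.2 ⟨V, ψ, c, hz, rfl⟩)).trans (h.co_κ k e' _)

lemma st_sp : St h.sp where
  sp :=
    { tensor := isIsom_iff.2 fun e e' y hy k => isIsom_iff.1 (h.isom e.1) e.2 e' y hy k
      signature := fun e => (A e.1).h.gh.st.sp.signature e.2
      timelike := fun e => (A e.1).h.gh.st.sp.timelike e.2
      continuous := fun e => (A e.1).h.gh.st.sp.continuous e.2
      regular := fun e => (A e.1).h.gh.st.sp.regular e.2 }
  vac e := (A e.1).h.gh.st.vac e.2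

lemma sc [Countable ι] : SecondCountableTopology h.Q := by
  have c : ∀ i, SecondCountableTopology (range (h.κ i)) := fun i =>
    have := (A i).h.gh.sc
    (h.emb i).isEmbedding.toHomeomorph.symm.secondCountableTopology
  exact TopologicalSpace.secondCountableTopology_of_countable_cover (U := fun i => range (h.κ i))
    (fun i => (h.emb i).isOpen_range) (eq_univ_of_forall fun p => mem_iUnion.2 (h.cover p))

end Hy

/-- **GL1.** -/
theorem gl1 (Z : L0) (T : L3) (K : KEY) : GL1 := fun _ hd _ _ A =>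
  have h := hy Z T K hd A
  ⟨h.sp, h.κ, h.st_sp, h.sc, h.emb, h.isom, h.cover, fun _ _ _ _ => h.eq⟩

end Vale.Agent.P354CB35
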